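import Vale.Agent.P007.MathlibUsed

/-!
The definitions used in the final statement.
-/

open MeasureTheory Matrix NumberField Filter Topology
open scoped nonZeroDivisors ENNReal CompactlySupported

namespace Vale.Agent.P007.F

/-- `SL_n(ℤ)` as a subgroup of `SL_n(ℝ)`. -/
def Gam (n : ℕ) : Subgroup (Matrix.SpecialLinearGroup (Fin n) ℝ) :=
  (Matrix.SpecialLinearGroup.map (Int.castRingHom ℝ)).range

/-- `X_n = SL_n(ℤ)\SL_n(ℝ)`: the cosets `SL_n(ℤ) g`. -/
def X (n : ℕ) : Type := Quotient (QuotientGroup.rightRel (Gam n))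

/-- The quotient topology. -/
instance (n : ℕ) : TopologicalSpace (X n) := instTopologicalSpaceQuotient

/-- The Borel sigma-algebra. -/
instance (n : ℕ) : MeasurableSpace (X n) := borel (X n)

/-- The point `SL_n(ℤ) g` of `X_n`. -/
def pt {n : ℕ} (g : Matrix.SpecialLinearGroup (Fin n) ℝ) : X n := Quotient.mk _ g

/-- Right translation `SL_n(ℤ) g ↦ SL_n(ℤ) g h`. -/
def tr {n : ℕ} (h : Matrix.SpecialLinearGroup (Fin n) ℝ) (x : X n) : X n :=
  Quotient.liftOn x (fun g => pt (g * h)) (fun a b hab => Quotient.sound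
    (QuotientGroup.rightRel_apply.mpr
      (by simpa [mul_assoc] using QuotientGroup.rightRel_apply.mp hab)))

/-- The lattice `ℤ^n g` (row vectors) of the point `SL_n(ℤ) g`. -/
def lat {n : ℕ} (g : Matrix.SpecialLinearGroup (Fin n) ℝ) : Set (Fin n → ℝ) :=
  Set.range fun c : Fin n → ℤ => (fun i => (c i : ℝ)) ᵥ* g.1

/-- The exponents `(u_1, …, u_{n-1}, -(u_1 + … + u_{n-1}))`. -/
def expo {n : ℕ} (u : Fin (n - 1) → ℝ) (j : Fin n) : ℝ :=
  if h : j.1 < n - 1 then u ⟨j.1, h⟩ else -∑ i, u i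

theorem sum_expo {n : ℕ} (u : Fin (n - 1) → ℝ) : ∑ j, expo u j = 0 := by
  cases n <;> simp [Fin.sum_univ_castSucc, expo]

/-- The element `diag(e^{u_1}, …, e^{u_n})` of `A_n`, `u_n = -(u_1 + … + u_{n-1})`. -/
noncomputable def aexp {n : ℕ} (u : Fin (n - 1) → ℝ) : Matrix.SpecialLinearGroup (Fin n) ℝ :=
  ⟨diagonal fun j => Real.exp (expo u j), by
    rw [det_diagonal, ← Real.exp_sum, sum_expo, Real.exp_zero]⟩

/-- The orbit `x A_n`. -/
def orb {n : ℕ} (x : X n) : Set (X n) := Set.range fun u => tr (aexp u) x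

/-- `OrbMeas S λ`: `λ = vol(S) ν_S`, the image on the orbit `S = x A_n` of the measure
`du_1 ⋯ du_{n-1}` on a Borel set `B ⊆ ℝ^{n-1}` which `u ↦ x a(u)` maps bijectively onto `S`. -/
inductive OrbMeas {n : ℕ} : Set (X n) → Measure (X n) → Prop
  | mk (x : X n) (B : Set (Fin (n - 1) → ℝ)) (hB : MeasurableSet B)
      (hbij : Set.BijOn (fun u => tr (aexp u) x) B (orb x)) :
      OrbMeas (orb x) ((volume.restrict B).map fun u => tr (aexp u) x)

/-- `(K, 𝒪, σ)` is a triple of degree `n`: a totally real number field `K` of degree `n`, an order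
`𝒪` in it (a subring of finite index of the ring of integers) and an ordering `σ` of its real
embeddings. -/
structure IsTriple {n : ℕ} (K : Type) [Field K] [NumberField K] (O : Subring (𝓞 K))
    (σ : Fin n ≃ (K →+* ℝ)) : Prop where
  real : IsTotallyReal K
  deg : Module.finrank ℚ K = n
  order : O.toAddSubgroup.FiniteIndex

/-- `|Disc 𝒪| = |Disc K| [𝒪_K : 𝒪]^2`. -/
noncomputable def disc (K : Type) [Field K] [NumberField K] (O : Subring (𝓞 K)) : ℕ :=
  (discr K).natAbs * O.toAddSubgroup.index ^ 2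

/-- The packet of `(K, 𝒪, σ)`: `Pkt K 𝒪 σ S` means that `S` is the orbit `x A_n` of the point `x` of
`X_n` whose lattice is `c σ(I) w` for an invertible fractional `𝒪`-ideal `I`, a sign matrix
`w = diag(±1)` and a scalar `c > 0` (necessarily `covol(σ(I))^{-1/n}`). -/
inductive Pkt {n : ℕ} (K : Type) [Field K] [NumberField K] (O : Subring (𝓞 K))
    (σ : Fin n ≃ (K →+* ℝ)) : Set (X n) → Prop
  | mk (I : (FractionalIdeal O⁰ K)ˣ) (w : Fin n → ℤˣ) (c : ℝ)
      (g : Matrix.SpecialLinearGroup (Fin n) ℝ) (hc : 0 < c)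
      (hg : lat g = {v | ∃ a ∈ (I : FractionalIdeal O⁰ K),
        v = fun j => c * σ j a * ((w j : ℤ) : ℝ)}) :
      Pkt K O σ (orb (pt g))

/-- `μ = ∑ vol(S) ν_S / ∑ vol(S)`, sums over the orbits `S` with `P S`. -/
def IsAverage {n : ℕ} (P : Set (X n) → Prop) (μ : Measure (X n)) : Prop :=
  ∃ l : Set (X n) → Measure (X n), (∀ S, P S → OrbMeas S (l S)) ∧
    μ = (∑' S : {S // P S}, l S Set.univ)⁻¹ • Measure.sum fun S : {S // P S} => l S

/-- `(K, 𝒪, σ)` is a triple of degree `n` and `μ` is its packet measure. -/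
structure PacketMeas {n : ℕ} (K : Type) [Field K] [NumberField K] (O : Subring (𝓞 K))
    (σ : Fin n ≃ (K →+* ℝ)) (μ : Measure (X n)) : Prop where
  triple : IsTriple K O σ
  average : IsAverage (Pkt K O σ) μ

/-- `m` is an `SL_n(ℝ)`-invariant Borel probability measure on `X_n`. -/
def IsInvProb {n : ℕ} (m : Measure (X n)) : Prop :=
  IsProbabilityMeasure m ∧ ∀ h, m.map (tr h) = m

/-- Weak convergence `μ_i → m`: convergence of the integrals of all `f ∈ C_c(X_n)`, and no mass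
escapes. -/
def WeakTo {n : ℕ} (μ : ℕ → Measure (X n)) (m : Measure (X n)) : Prop :=
  (∀ f : C_c(X n, ℝ), Tendsto (fun i => ∫ x, f x ∂μ i) atTop (𝓝 (∫ x, f x ∂m))) ∧
  ∀ ε > 0, ∃ C : Set (X n), IsCompact C ∧ ∀ᶠ i in atTop, μ i Cᶜ ≤ ε

/-- The assertion of Q1 in degree `n`: for every sequence `(K_i, 𝒪_i, σ_i)` with
`|Disc 𝒪_i| → ∞` the packet measures converge weakly to the invariant probability. -/
def Q1 (n : ℕ) : Prop :=
  ∀ (K : ℕ → Type) [∀ i, Field (K i)] [∀ i, NumberField (K i)] (O : ∀ i, Subring (𝓞 (K i)))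
    (σ : ∀ i, Fin n ≃ (K i →+* ℝ)) (μ : ℕ → Measure (X n)) (m : Measure (X n)),
    (∀ i, PacketMeas (K i) (O i) (σ i) (μ i)) →
    Tendsto (fun i => disc (K i) (O i)) atTop atTop → IsInvProb m → WeakTo μ m

end Vale.Agent.P007.F
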