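import Mathlib.Algebra.AffineMonoid.Basic
import Mathlib.Algebra.GroupWithZero.Submonoid.CancelMulZero
import Mathlib.Algebra.Module.Lattice
import Mathlib.Algebra.Module.StablyFree.Basic
import Mathlib.Algebra.Module.ZLattice.Summable
import Mathlib.Algebra.Ring.Action.Pointwise.Finset
import Mathlib.Algebra.Ring.IsFormallyReal
import Mathlib.Analysis.Complex.BorelCaratheodory
import Mathlib.Analysis.Complex.HasPrimitives
import Mathlib.Analysis.Fourier.RiemannLebesgueLemma
import Mathlib.Analysis.Normed.Group.Tannery
import Mathlib.Analysis.Normed.Unbundled.RingSeminorm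
import Mathlib.Analysis.SpecialFunctions.Stirling
import Mathlib.CategoryTheory.Countable
import Mathlib.Combinatorics.SimpleGraph.AdjMatrix
import Mathlib.Computability.Reduce
import Mathlib.Data.Finite.Perm
import Mathlib.Data.Int.Star
import Mathlib.Dynamics.Ergodic.Conservative
import Mathlib.GroupTheory.IndexNSmul
import Mathlib.LinearAlgebra.Matrix.Swap
import Mathlib.LinearAlgebra.SpecialLinearGroup
import Mathlib.MeasureTheory.Function.LpSpace.ContinuousCompMeasurePreserving
import Mathlib.MeasureTheory.Integral.RieszMarkovKakutani.Real
import Mathlib.NumberTheory.Chebyshev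
import Mathlib.NumberTheory.Harmonic.Bounds
import Mathlib.NumberTheory.LSeries.PrimesInAP
import Mathlib.NumberTheory.NumberField.Cyclotomic.Basic
import Mathlib.NumberTheory.NumberField.DedekindZeta
import Mathlib.NumberTheory.Padics.MahlerBasis
import Mathlib.NumberTheory.RamificationInertia.Basic
import Mathlib.NumberTheory.ZetaValues
import Mathlib.Order.CompletePartialOrder
import Mathlib.Order.Extension.Linear
import Mathlib.Order.Filter.Partial
import Mathlib.Order.Interval.Set.Nat
import Mathlib.Probability.Distributions.Gaussian.Real
import Mathlib.Probability.Kernel.CompProdEqIff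
import Mathlib.Probability.Kernel.Disintegration.StandardBorel
import Mathlib.RingTheory.DedekindDomain.SInteger
import Mathlib.RingTheory.Frobenius
import Mathlib.RingTheory.Henselian
import Mathlib.RingTheory.PicardGroup
import Mathlib.RingTheory.RegularLocalRing.Defs
import Mathlib.RingTheory.SimpleRing.Principal
import Mathlib.RingTheory.TotallySplit
import Mathlib.Tactic
import Mathlib.Topology.Algebra.Group.Matrix
import Mathlib.Topology.UniformSpace.Uniformizable

/-! The part of Mathlib that the development of this folder uses. -/
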