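import Vale.Agent.P007.MathlibUsed

open MeasureTheory Matrix NumberField Filter Topology
open scoped nonZeroDivisors ENNReal CompactlySupported

namespace Vale.Agent.P007

/-- `SL_n(ℤ)` as a subgroup of `SL_n(ℝ)`. -/
def Gam (n : ℕ) : Subgroup (Matrix.SpecialLinearGroup (Fin n) ℝ) :=
  (Matrix.SpecialLinearGroup.map (Int.castRingHom ℝ)).range

/-- `X_n = SL_n(ℤ)\SL_n(ℝ)`: the cosets `SL_n(ℤ) g`. -/
def X (n : ℕ) : Type := Quotient (QuotientGroup.rightRel (Gam n))

/-- The quotient topology. -/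
instance (n : ℕ) : TopologicalSpace (X n) := instTopologicalSpaceQuotient

/-- The Borel sigma-algebra. -/
instance (n : ℕ) : MeasurableSpace (X n) := borel (X n)

/-- The point `SL_n(ℤ) g` of `X_n`. -/
def pt {n : ℕ} (g : Matrix.SpecialLinearGroup (Fin n) ℝ) : X n := Quotient.mk _ g

/-- Right translation `SL_n(ℤ) g ↦ SL_n(ℤ) g h`. -/
def tr {n : ℕ} (h : Matrix.SpecialLinearGroup (Fin n) ℝ) (x : X n) : X n :=
  Quotient.liftOn x (fun g => pt (g * h)) (fun a b hab => Quotient.sound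
    (QuotientGroup.rightRel_apply.mpr
      (by simpa [mul_assoc] using QuotientGroup.rightRel_apply.mp hab)))

/-- The lattice `ℤ^n g` (row vectors) of the point `SL_n(ℤ) g`. -/
def lat {n : ℕ} (g : Matrix.SpecialLinearGroup (Fin n) ℝ) : Set (Fin n → ℝ) :=
  Set.range fun c : Fin n → ℤ => (fun i => (c i : ℝ)) ᵥ* g.1

/-- The exponents `(u_1, …, u_{n-1}, -(u_1 + … + u_{n-1}))`. -/
def expo {n : ℕ} (u : Fin (n - 1) → ℝ) (j : Fin n) : ℝ :=
  if h : j.1 < n - 1 then u ⟨j.1, h⟩ else -∑ i, u i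

theorem sum_expo {n : ℕ} (u : Fin (n - 1) → ℝ) : ∑ j : Fin n, expo u j = 0 := by
  obtain _ | k := n
  · simp
  · rw [Fin.sum_univ_castSucc]
    have h1 : ∀ i : Fin k, expo (n := k + 1) u i.castSucc = u i := by
      intro i; simp [expo]
    have h2 : expo (n := k + 1) u (Fin.last k) = -∑ i, u i := by
      simp [expo]
    rw [h2, Finset.sum_congr rfl fun i _ => h1 i]
    exact add_neg_cancel _

/-- The element `diag(e^{u_1}, …, e^{u_n})` of `A_n`, `u_n = -(u_1 + … + u_{n-1})`. -/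
noncomputable def aexp {n : ℕ} (u : Fin (n - 1) → ℝ) : Matrix.SpecialLinearGroup (Fin n) ℝ :=
  ⟨diagonal fun j => Real.exp (expo u j), by
    rw [det_diagonal, ← Real.exp_sum, sum_expo, Real.exp_zero]⟩

/-- The orbit `x A_n`. -/
def orb {n : ℕ} (x : X n) : Set (X n) := Set.range fun u => tr (aexp u) x

/-- `OrbMeas O λ`: `λ = vol(O) ν_O`, the image on `O = x A_n` of the measure `du_1 ⋯ du_{n-1}` on a
Borel set `D ⊆ ℝ^{n-1}` which `u ↦ x a(u)` maps bijectively onto `O`. -/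
inductive OrbMeas {n : ℕ} : Set (X n) → Measure (X n) → Prop
  | mk (x : X n) (D : Set (Fin (n - 1) → ℝ)) (hD : MeasurableSet D)
      (hbij : Set.BijOn (fun u => tr (aexp u) x) D (orb x)) :
      OrbMeas (orb x) ((volume.restrict D).map fun u => tr (aexp u) x)

/-- `(K, 𝒪, σ)`: a totally real number field of degree `n`, an order in it, and an ordering of its
real embeddings. -/
structure IsDatum {n : ℕ} (K : Subfield ℝ) [NumberField K] (O : Subring (𝓞 K))
    (σ : Fin n ≃ (K →+* ℝ)) : Prop where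
  real : IsTotallyReal K
  deg : Module.finrank ℚ K = n
  order : O.toAddSubgroup.FiniteIndex

/-- `|Disc 𝒪| = |Disc K| [𝒪_K : 𝒪]^2`. -/
noncomputable def disc (K : Subfield ℝ) [NumberField K] (O : Subring (𝓞 K)) : ℕ :=
  (discr K).natAbs * O.toAddSubgroup.index ^ 2

/-- `Pkt K 𝒪 σ O`: `O` is in the packet, i.e. it is the orbit of the point of `X_n` whose lattice
is `c σ(I) w` for an invertible fractional `𝒪`-ideal `I`, a sign matrix `w = diag(±1)` and a scalar
`c > 0` (necessarily `covol(σ(I))^{-1/n}`). -/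
inductive Pkt {n : ℕ} (K : Subfield ℝ) (O : Subring (𝓞 K)) (σ : Fin n ≃ (K →+* ℝ)) :
    Set (X n) → Prop
  | mk (I : (FractionalIdeal O⁰ K)ˣ) (w : Fin n → ℤˣ) (c : ℝ)
      (g : Matrix.SpecialLinearGroup (Fin n) ℝ) (hc : 0 < c)
      (hg : lat g = {v | ∃ a ∈ (I : FractionalIdeal O⁰ K),
        v = fun j => c * σ j a * ((w j : ℤ) : ℝ)}) :
      Pkt K O σ (orb (pt g))

/-- `μ` is the packet measure `∑ vol(O) ν_O / ∑ vol(O)`, sums over the orbits `O` of the packet. -/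
def PktMeas {n : ℕ} (P : Set (X n) → Prop) (μ : Measure (X n)) : Prop :=
  ∃ l : Set (X n) → Measure (X n), (∀ S, P S → OrbMeas S (l S)) ∧
    μ = (∑' S : {S // P S}, l S Set.univ)⁻¹ • Measure.sum fun S : {S // P S} => l S

/-- `m` is an `SL_n(ℝ)`-invariant Borel probability measure on `X_n`. -/
def IsInvProb {n : ℕ} (m : Measure (X n)) : Prop :=
  IsProbabilityMeasure m ∧ ∀ h, m.map (tr h) = m

/-- Weak convergence `μ_i → m`: convergence of the integrals of all `f ∈ C_c(X_n)`, and no mass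
escapes. -/
def WeakTo {n : ℕ} (μ : ℕ → Measure (X n)) (m : Measure (X n)) : Prop :=
  (∀ f : C_c(X n, ℝ), Tendsto (fun i => ∫ x, f x ∂μ i) atTop (𝓝 (∫ x, f x ∂m))) ∧
  ∀ ε > 0, ∃ C : Set (X n), IsCompact C ∧ ∀ᶠ i in atTop, μ i Cᶜ ≤ ε

/-- The assertion of Q1 in degree `n`. -/
def Q1 (n : ℕ) : Prop :=
  ∀ (K : ℕ → Subfield ℝ) [∀ i, NumberField (K i)] (O : ∀ i, Subring (𝓞 (K i)))
    (σ : ∀ i, Fin n ≃ (K i →+* ℝ)) (μ : ℕ → Measure (X n)) (m : Measure (X n)),
    (∀ i, IsDatum (K i) (O i) (σ i)) → (∀ i, PktMeas (Pkt (K i) (O i) (σ i)) (μ i)) →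
    Tendsto (fun i => disc (K i) (O i)) atTop atTop → IsInvProb m → WeakTo μ m

end Vale.Agent.P007
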